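import Vale.Agent.P042.Family

/-!
A square-difference-free subset of `[N]` of size at least a constant times `N ^ (473 / 625)`.
-/

namespace Vale.Agent.Results.P042.SquareDifferenceExponent

open Vale.Agent.P042

theorem result :
    ∃ c : ℝ, 0 < c ∧ ∀ N : ℕ, ∃ A : Finset ℕ, A ⊆ Finset.Icc 1 N ∧
      (∀ a ∈ A, ∀ b ∈ A, ∀ t : ℕ, a + t ^ 2 = b → t = 0) ∧
      c * (N : ℝ) ^ ((473 : ℝ) / 625) ≤ (A.card : ℝ) :=
  exponent_of_family famM famC (2 ^ 295) 12 (by norm_num) (by decide +kernel) family numeric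

end Vale.Agent.Results.P042.SquareDifferenceExponent
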